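import Vale.Agent.P199.Core
import Vale.Agent.P199.Field.Extend
import Vale.Agent.P199.Stage.Base

/-!
P199, main: a commutative subalgebra of a central division algebra has square dimension at most that of the algebra, so
the elements of rows have degree at most the square root of the dimension; the arithmetic of the rank invariant.
-/

namespace Vale.Agent.P199

noncomputable section

open Module

/-- Commutative subalgebras are small. -/
theorem sq_finrank_le {K D : Type} [Field K] [DivisionRing D] [Algebra K D] [FiniteDimensional K D]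
    (hK : ∀ d : D, (∀ t, d * t = t * d) → ∃ r : K, algebraMap K D r = d)
    (A : Subalgebra K D) (hA : ∀ x ∈ A, ∀ y ∈ A, x * y = y * x) :
    finrank K A * finrank K A ≤ finrank K D := by
  let _ : Field A := fieldSub A hA
  set g := finrank K A with hg
  let l := Module.finBasis K A
  set h := finrank A D with hh
  have hfin : Module.Finite A D := Module.Finite.of_restrictScalars_finite K A D
  let e := Module.finBasis A D
  have hmul : g * h = finrank K D := Module.finrank_mul_finrank K A D
  have hl : LinearIndependent K fun k => (l k : D) :=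
    l.linearIndependent.map' A.val.toLinearMap (LinearMap.ker_eq_bot.2 Subtype.val_injective)
  let ev : (Fin g → D) →ₗ[K] (Fin h → D) :=
    { toFun := fun y i => ∑ k, (l k : D) * e i * y k
      map_add' := fun y z => funext fun i => by simp [mul_add, Finset.sum_add_distrib]
      map_smul' := fun r y => funext fun i => by simp [Finset.smul_sum] }
  have hinj : Function.Injective ev := by
    rw [injective_iff_map_eq_zero]
    intro y hy
    funext k
    refine Vale.P199.Fld.sum_mul_mul_eq_zero hK _ hl Finset.univ y (fun b => ?_) k (Finset.mem_univ k)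
    rw [← e.sum_repr b]
    simp only [Finset.mul_sum, Finset.sum_mul]
    rw [Finset.sum_comm]
    refine Finset.sum_eq_zero fun i _ => ?_
    have h0 : ∑ k, (l k : D) * e i * y k = 0 := congrFun hy i
    rw [show (0 : D) = (e.repr b i : D) * ∑ k, (l k : D) * e i * y k by rw [h0, mul_zero],
      Finset.mul_sum]
    refine Finset.sum_congr rfl fun k _ => ?_
    show (l k : D) * ((e.repr b i : D) * e i) * y k = _
    rw [← mul_assoc, hA _ (l k).2 _ (e.repr b i).2]
    simp only [mul_assoc]
  have hle := LinearMap.finrank_le_finrank_of_injective hinj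
  rw [Module.finrank_pi_fintype, Module.finrank_pi_fintype] at hle
  simp only [Finset.sum_const, Finset.card_univ, Fintype.card_fin, smul_eq_mul] at hle
  exact hmul ▸ Nat.mul_le_mul_left g (Nat.le_of_mul_le_mul_right hle Module.finrank_pos)

/-- The field generated by the element of a row is small. -/
theorem sq_finrank_scalars_le {P : Pt} (hP : P.Central) (L : Listing) (j : ℕ) :
    finrank P.K (Algebra.adjoin P.K {P.q L j}) * finrank P.K (Algebra.adjoin P.K {P.q L j}) ≤
      finrank P.K P.D :=
  sq_finrank_le hP _ fun _ hx _ hy => Algebra.commute_of_mem_adjoin_singleton_of_commute hy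
    (Algebra.commute_of_mem_adjoin_singleton_of_commute hx (Commute.refl _)).symm

/-- The rank invariant: some bound on the ranks is big against the identities and the dimension. -/
def Rows.Big {L : Listing} {n : ℕ} {P : Pt} (r : Rows L n P) : Prop :=
  ∃ R, r.RankGE R ∧ 12 * r.corank ≤ R ∧ 16 * finrank P.K P.D ≤ (R - 12 * r.corank) ^ 2

theorem Rows.rankGE_of_corank {L : Listing} {n : ℕ} {P : Pt} (r : Rows L n P) (h : r.corank = 0)
    (R : ℕ) : r.RankGE R := fun y hy h0 => by
  have : Subsingleton r.Y := (Module.finrank_zero_iff (R := P.K) (M := r.Y)).1 h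
  exact absurd (congrArg Subtype.val (Subsingleton.elim (⟨y, hy⟩ : r.Y) 0)) h0

/-- Without identities the invariant holds. -/
theorem Rows.big_of_corank {L : Listing} {n : ℕ} {P : Pt} (r : Rows L n P) (h : r.corank = 0) :
    r.Big := by
  refine ⟨4 * finrank P.K P.D, r.rankGE_of_corank h _, by omega, ?_⟩
  rw [h]
  have h1 : 0 < finrank P.K P.D := Module.finrank_pos
  simp only [Nat.mul_zero, Nat.sub_zero]
  nlinarith

theorem Rows.Big.bound_classes {L : Listing} {n : ℕ} {P : Pt} {r : Rows L n P} {R g : ℕ}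
    (h : 16 * finrank P.K P.D ≤ (R - 12 * r.corank) ^ 2) (hg : g * g ≤ finrank P.K P.D) :
    4 * g ≤ R - 12 * r.corank :=
  (Nat.pow_le_pow_iff_left two_ne_zero).1 (by nlinarith)

/-- The invariant along a lift. -/
theorem big_lift {c c' R N l : ℕ} (hc : c' ≤ c) (hl : 2 ≤ l) (h1 : 12 * c ≤ R)
    (h2 : 16 * N ≤ (R - 12 * c) ^ 2) :
    12 * c' ≤ (R - 4 * c) * l ^ 2 - 2 * c ∧
      16 * (N * (l * l)) ≤ ((R - 4 * c) * l ^ 2 - 2 * c - 12 * c') ^ 2 := by
  have hl2 : 4 ≤ l ^ 2 := le_trans (by norm_num) (Nat.pow_le_pow_left hl 2)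
  obtain ⟨S, rfl⟩ : ∃ S, R = 12 * c + S := ⟨R - 12 * c, by omega⟩
  have e : (12 * c + S - 4 * c) * l ^ 2 = 8 * c * l ^ 2 + S * l ^ 2 := by
    rw [show 12 * c + S - 4 * c = 8 * c + S by omega]; ring
  have h8 : 14 * c ≤ 8 * c * l ^ 2 := by nlinarith
  have hS : S * l ^ 2 ≤ (12 * c + S - 4 * c) * l ^ 2 - 2 * c - 12 * c' := by omega
  refine ⟨by omega, ?_⟩
  have h3 : 16 * N ≤ S ^ 2 := by simpa using h2
  calc 16 * (N * (l * l)) = 16 * N * l ^ 2 := by ring
    _ ≤ S ^ 2 * l ^ 2 := Nat.mul_le_mul_right _ h3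
    _ ≤ (S * l ^ 2) ^ 2 := by
      rw [mul_pow]
      exact Nat.mul_le_mul_left _ (by nlinarith)
    _ ≤ _ := Nat.pow_le_pow_left hS 2

/-- The invariant along an arc. -/
theorem big_arc {c c' R N : ℕ} (hc : c' ≤ c) (h1 : 12 * c ≤ R) (h2 : 16 * N ≤ (R - 12 * c) ^ 2) :
    12 * c' ≤ R - 2 * (c - c') ∧ 16 * N ≤ (R - 2 * (c - c') - 12 * c') ^ 2 :=
  ⟨by omega, h2.trans (Nat.pow_le_pow_left (by omega) 2)⟩

/-- A rank of the order of `l ^ 2` restores the invariant at a large `l`. -/
theorem big_freeze {c C R N l : ℕ} (hc : c ≤ C) (hl : 16 * N + 24 * C + 4 ≤ l) (hR : l * l ≤ 2 * R) :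
    12 * c ≤ R ∧ 16 * (N * (l * l)) ≤ (R - 12 * c) ^ 2 := by
  have h0 : 4 * l ≤ l * l := Nat.mul_le_mul_right l (by omega)
  have h1 : 24 * c * 1 ≤ l * l := by nlinarith
  obtain ⟨S, hS⟩ : ∃ S, R = 12 * c + S := ⟨R - 12 * c, by omega⟩
  subst hS
  refine ⟨by omega, ?_⟩
  rw [Nat.add_sub_cancel_left]
  have h2 : l * l ≤ 24 * c + 2 * S := by omega
  have h3 : l * l ≤ 4 * S := by nlinarith
  have h4 : 256 * N ≤ l * l := by nlinarith [Nat.le_mul_self N, Nat.mul_le_mul hl hl]
  nlinarith

end

end Vale.Agent.P199
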