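import Vale.Agent.P199.Stage.NewRow
import Vale.Agent.P199.Main.Bound
import Vale.Agent.P199.Minimise.Basic

/-!
P199, main: the first rows of a stage. Truncating keeps surjectivity, the budget and the rank invariant and does not raise
the number of identities.
-/

namespace Vale.Agent.P199

noncomputable section

open Module

namespace Rows

variable {L : Listing} {n m : ℕ} {P : Pt} (r : Rows L n P) (h : m ≤ n)

/-- The first `m` rows. -/
def trunc : Rows L m P where
  W i := r.W (Fin.castLE h i)
  Pp i := r.Pp (Fin.castLE h i)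
  proj i := r.proj (Fin.castLE h i)
  projF i := r.projF (Fin.castLE h i)
  proj_mem i := r.proj_mem (Fin.castLE h i)
  proj_self i := r.proj_self (Fin.castLE h i)
  proj_Pp i := r.proj_Pp (Fin.castLE h i)
  projF_mem i := r.projF_mem (Fin.castLE h i)
  projF_self i := r.projF_self (Fin.castLE h i)
  proj_projF i := r.proj_projF (Fin.castLE h i)
  Pp_le i := r.Pp_le (Fin.castLE h i)
  scalars_le i := r.scalars_le (Fin.castLE h i)

theorem trunc_self : r.trunc (le_refl n) = r := rfl

theorem trunc_trunc {k : ℕ} (h' : k ≤ m) : (r.trunc h).trunc h' = r.trunc (h'.trans h) := rfl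

/-- Families on the first `m` rows from families on all rows. -/
def res : ((j : Fin n) → r.W j) →ₗ[P.K] ((i : Fin m) → (r.trunc h).W i) :=
  LinearMap.pi fun i => LinearMap.proj (Fin.castLE h i)

theorem res_surjective : Function.Surjective (r.res h) := fun x =>
  ⟨fun j => if hj : (j : ℕ) < m then x ⟨j, hj⟩ else 0, funext fun i => dif_pos i.2⟩

theorem res_J : (r.res h).comp r.J = (r.trunc h).J :=
  LinearMap.ext fun u => funext fun i => Subtype.ext (by
    show r.proj (Fin.castLE h i) (P.dEq L (L.b n) i (u, 0)) =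
      r.proj (Fin.castLE h i) (P.dEq L (L.b m) i (u, 0))
    rw [P.dEq_ambient L (L.b n) (L.b m)])

theorem T_le_trunc : r.T ≤ (r.trunc h).T := fun u hu => by
  rw [T, LinearMap.mem_ker, ← r.res_J h, LinearMap.comp_apply, LinearMap.mem_ker.1 hu, map_zero]

theorem dualMap_res_mem {y : Dual P.K ((i : Fin m) → (r.trunc h).W i)} (hy : y ∈ (r.trunc h).Y) :
    (r.res h).dualMap y ∈ r.Y := by
  refine (Submodule.mem_dualAnnihilator _).2 ?_
  rintro _ ⟨u, rfl⟩
  refine (Submodule.mem_dualAnnihilator _).1 hy _ ⟨u, ?_⟩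
  rw [← r.res_J h]
  rfl

theorem corank_trunc_le : (r.trunc h).corank ≤ r.corank := by
  let f : (r.trunc h).Y →ₗ[P.K] r.Y :=
    (((r.res h).dualMap).comp (r.trunc h).Y.subtype).codRestrict r.Y fun y =>
      r.dualMap_res_mem h y.2
  refine LinearMap.finrank_le_finrank_of_injective (f := f) fun y z e => Subtype.ext ?_
  exact LinearMap.dualMap_injective_of_surjective (r.res_surjective h) (congrArg Subtype.val e)

theorem form_trunc (y : Dual P.K ((i : Fin m) → (r.trunc h).W i)) (u v : Amb P) :
    r.form ((r.res h).dualMap y) u v = (r.trunc h).form y u v := by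
  refine congrArg y (funext fun i => Subtype.ext ?_)
  show r.proj (Fin.castLE h i) (Poly.d2 P.val (P.dirVal (N := L.b n) (u, 0))
    (P.dirVal (N := L.b n) (v, 0)) (L.eqn i)) = r.proj (Fin.castLE h i) _
  rw [P.dirVal_ambient (L.b n) (L.b m), P.dirVal_ambient (L.b n) (L.b m)]

theorem rankGE_trunc {R : ℕ} (hR : r.RankGE R) : (r.trunc h).RankGE R := by
  intro y hy h0 S hS hform
  have h1 := hR _ (r.dualMap_res_mem h hy)
    (fun e => h0 (LinearMap.dualMap_injective_of_surjective (r.res_surjective h)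
      (e.trans (map_zero _).symm)))
    (S ⊓ r.T) inf_le_right fun u hu v hv => by
      rw [form_trunc]; exact hform u hu.1 v (r.T_le_trunc h hv)
  have h2 := Submodule.finrank_sup_add_finrank_inf_eq S r.T
  have h3 : finrank P.K ↥(S ⊔ r.T) ≤ finrank P.K (r.trunc h).T :=
    Submodule.finrank_mono (sup_le hS (r.T_le_trunc h))
  omega

theorem big_trunc (hB : r.Big) : (r.trunc h).Big := by
  obtain ⟨R, hR, h1, h2⟩ := hB
  have hc := r.corank_trunc_le h
  exact ⟨R, r.rankGE_trunc h hR, by omega, h2.trans (Nat.pow_le_pow_left (by omega) 2)⟩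

theorem budget_trunc (hb : ∑ j, finrank P.K (r.W j) < finrank P.K P.D) :
    ∑ i, finrank P.K ((r.trunc h).W i) < finrank P.K P.D := by
  refine lt_of_le_of_lt ?_ hb
  calc ∑ i, finrank P.K ((r.trunc h).W i)
      = ∑ j ∈ Finset.univ.map ⟨Fin.castLE h, Fin.castLE_injective h⟩, finrank P.K (r.W j) := by
        rw [Finset.sum_map]; rfl
    _ ≤ _ := Finset.sum_le_univ_sum_of_nonneg fun _ => Nat.zero_le _

theorem surj_trunc (hg : ∀ j < m, L.Guarded j) (hs : Function.Surjective r.Jf) :
    Function.Surjective (r.trunc h).Jf := fun t => by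
  obtain ⟨w, hw⟩ := hs fun j =>
    if hj : (j : ℕ) < m then ⟨(t ⟨j, hj⟩ : P.D), (t ⟨j, hj⟩).2⟩ else 0
  refine ⟨P.cutDir (NewRow.b_mono L h) w, funext fun i => Subtype.ext ?_⟩
  have h1 := congrArg Subtype.val (congrFun hw (Fin.castLE h i))
  rw [dif_pos (show ((Fin.castLE h i : Fin n) : ℕ) < m from i.2)] at h1
  show r.projF (Fin.castLE h i) (P.dEq L (L.b m) i (P.cutDir (NewRow.b_mono L h) w)) = _
  rw [P.dEq_cutDir L (NewRow.b_mono L h) (NewRow.b_mono L i.2) (hg i i.2)]
  exact h1

end Rows

/-- The first `m` rows of a stage. -/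
def Stg.trunc {L : Listing} {n m : ℕ} (s : Stg L n) (h : m ≤ n) : Stg L m := ⟨s.P, s.rows.trunc h⟩

end

end Vale.Agent.P199
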