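import Vale.Agent.P199.Main.Congr
import Vale.Agent.P199.Minimise.Stable
import Vale.Agent.P199.Minimise.Degree

/-!
P199, main: good stages by recursion on the number of rows, their edges, and minimisers below them. The invariant of a row
is a parameter; it may speak about all descendants of the earlier rows.
-/

namespace Vale.Agent.P199

open Relation Module

noncomputable section

/-- The base change part of a step does not lower the dimension, nor does the Laurent part. -/
theorem finrank_le_of_step {P Q : Pt} (h : Step P Q) : finrank P.K P.D ≤ finrank Q.K Q.D := by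
  obtain ⟨P₁, ⟨E⟩, ⟨T⟩⟩ := h
  have hm : 1 ≤ E.m := E.mon_one.choose.pos
  let b := Module.finBasis P₁.K P₁.D
  have hi := T.linearIndependent_emb (fun i => PowerSeries.C (b i))
    (by simpa using b.linearIndependent)
  have h1 := hi.fintype_card_le_finrank
  rw [Fintype.card_fin, E.finrank_eq] at h1
  exact (Nat.le_mul_of_pos_right _ hm).trans h1

namespace Main

/-- The semantic part of a good stage. -/
structure Core {L : Listing} {n : ℕ} (s : Stg L n) : Prop where
  generates : s.P.Generates
  central : s.P.Central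
  solves : s.P.Solves L n
  guarded : ∀ j ≤ n, L.Guarded j
  pos : ∀ j < n, 0 < L.e j
  degree : ∀ j < n, L.e j ≤ finrank s.P.K (s.P.scalars L j)
  tight : s.rows.Tight
  deletes : s.rows.Deletes
  grown : n ≤ finrank s.P.K s.P.D
  budget : ∑ j, finrank s.P.K (s.rows.W j) < finrank s.P.K s.P.D
  big : s.rows.Big

/-- An edge towards a stage in `G`: a step on which no truncation gains identities. -/
def Edge {L : Listing} {n : ℕ} (G : Stg L n → Prop) (s t : Stg L n) : Prop :=
  Step s.P t.P ∧ G t ∧
    ∀ (m : ℕ) (h : m ≤ n), (t.trunc h).rows.corank ≤ (s.trunc h).rows.corank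

/-- The type of row invariants: the descendants of the earlier rows are given. -/
abbrev RowInv : Type 1 :=
  ∀ {L : Listing} {n : ℕ}, (Stg L n → Stg L n → Prop) → Stg L (n + 1) → Prop

variable (I : RowInv)

/-- Good stages. -/
def Good {L : Listing} : ∀ n, Stg L n → Prop
  | 0, s => Core s
  | n + 1, s =>
    Core s ∧ Good n (s.trunc (Nat.le_succ n)) ∧ I (ReflTransGen (Edge (Good n))) s

/-- The edges between good stages. -/
abbrev R {L : Listing} (n : ℕ) : Stg L n → Stg L n → Prop := Edge (Good I n)

variable {I} {L : Listing}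

theorem Good.core : ∀ {n : ℕ} {s : Stg L n}, Good I n s → Core s
  | 0, _, h => h
  | _ + 1, _, h => h.1

theorem Good.trunc : ∀ {n : ℕ} {s : Stg L n}, Good I n s → ∀ {m : ℕ} (h : m ≤ n), Good I m (s.trunc h)
  | 0, s, hs, m, h => by
    obtain rfl : m = 0 := Nat.le_zero.1 h
    exact hs
  | n + 1, s, hs, m, h => by
    rcases Nat.lt_or_ge m (n + 1) with h1 | h1
    · exact Good.trunc hs.2.1 (Nat.lt_succ_iff.1 h1)
    · obtain rfl : m = n + 1 := le_antisymm h h1
      exact hs

theorem Good.of_desc {n : ℕ} {s t : Stg L n} (h : ReflTransGen (R I n) s t) (hs : Good I n s) :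
    Good I n t := by
  induction h with
  | refl => exact hs
  | tail _ h2 _ => exact h2.2.1

theorem R.trunc {n m : ℕ} {s t : Stg L n} (h : R I n s t) (hm : m ≤ n) :
    R I m (s.trunc hm) (t.trunc hm) :=
  ⟨h.1, h.2.1.trunc hm, fun k hk => h.2.2 k (hk.trans hm)⟩

theorem desc_trunc {n m : ℕ} {s t : Stg L n} (h : ReflTransGen (R I n) s t) (hm : m ≤ n) :
    ReflTransGen (R I m) (s.trunc hm) (t.trunc hm) := by
  induction h with
  | refl => exact .refl
  | tail _ h2 ih => exact ih.tail (R.trunc h2 hm)

theorem finrank_le_of_desc {n : ℕ} {s t : Stg L n} (h : ReflTransGen (R I n) s t) :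
    finrank s.P.K s.P.D ≤ finrank t.P.K t.P.D := by
  induction h with
  | refl => exact le_rfl
  | tail _ h2 ih => exact ih.trans (finrank_le_of_step h2.1)

/-- Solved arcs are edges. -/
def ArcKept (I : RowInv) (L : Listing) (n : ℕ) : Prop :=
  ∀ s : Stg L n, Good I n s → ∀ (X : ℕ → Bool → s.P.D) (Cs : ℕ → ℕ → s.P.K) (hX : X 0 = s.P.xy)
    (hC : Cs 0 = s.P.c), (∀ m i, 0 < m → L.b n ≤ i → Cs m i = 0) →
    (SeriesPoint.data X Cs hX hC).pt.Solves L n → ∃ t, R I n s t ∧
      Minimise.trdegSym (L.b n) (SeriesPoint.data X Cs hX hC).pt ≤ Minimise.trdegSym (L.b n) t.P ∧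
      (t.rows.corank = s.rows.corank → s.rows.OrderOne (SeriesPoint.ser X Cs))

/-- The moves between good stages. -/
def moves {n : ℕ} (harc : ArcKept I L n) : Minimise.Moves L n where
  R := R I n
  Good := Good I n
  step _ _ h := h.1
  good _ _ h _ := h.2.1
  solves _ h := h.core.solves
  tight _ h := h.core.tight
  deletes _ h := h.core.deletes
  central _ h := h.core.central
  corank_le _ _ h _ := h.2.2 n le_rfl
  arc := harc

/-- A minimiser: identities and transcendence degree stable, the monotone invariants `f` constant, and `g` least. -/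
theorem exists_minimiser {n : ℕ} (harc : ArcKept I L n) {s : Stg L n} (hs : Good I n s) {k : ℕ}
    (f : Fin k → Stg L n → ℕ) (g : Stg L n → ℕ)
    (hmono : ∀ t, ReflTransGen (R I n) s t → Good I n t → (moves harc).Stable t → ∀ i b c,
      ReflTransGen (R I n) t b → (∀ d, ReflTransGen (R I n) b d → ∀ j < i, f j d = f j b) →
      R I n b c → f i c ≤ f i b) :
    ∃ t, ReflTransGen (R I n) s t ∧ Good I n t ∧ (moves harc).Stable t ∧
      (∀ u, ReflTransGen (R I n) t u → ∀ i, f i u = f i t) ∧
      ∀ u, ReflTransGen (R I n) t u → g t ≤ g u := by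
  classical
  obtain ⟨t₁, h1, hg1, hst, hf⟩ := (moves harc).exists_stable s hs f hmono
  have hex : ∃ v, ∃ u, ReflTransGen (R I n) t₁ u ∧ g u = v := ⟨_, t₁, .refl, rfl⟩
  obtain ⟨t, h2, ht⟩ := Nat.find_spec hex
  exact ⟨t, h1.trans h2, hg1.of_desc h2, Minimise.Moves.Stable.desc _ hst h2,
    fun u hu i => (hf u (h2.trans hu) i).trans (hf t h2 i).symm,
    fun u hu => ht ▸ Nat.find_min' hex ⟨u, h2.trans hu, rfl⟩⟩

/-- The identities of a stable good stage alternate. -/
theorem alternating_of_stable {n : ℕ} (harc : ArcKept I L n) {t : Stg L n}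
    (h : (moves harc).Stable t) (ht : Good I n t) : t.rows.Alternating :=
  Minimise.Moves.Stable.alternating (moves harc) h ht

/-- A row invariant respects listings agreeing on the rows. -/
def CongrKept (I : RowInv) : Prop :=
  ∀ {L L' : Listing} {n : ℕ} (A : L.Agree L' (n + 1))
    (D : Stg L n → Stg L n → Prop) (D' : Stg L' n → Stg L' n → Prop),
    (∀ a b, D' a b → D (a.congr (A.mono (Nat.le_succ n)).symm) (b.congr (A.mono (Nat.le_succ n)).symm)) →
    (∀ a b, D a b → D' (a.congr (A.mono (Nat.le_succ n))) (b.congr (A.mono (Nat.le_succ n)))) →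
    ∀ s, I D s → I D' (s.congr A)

theorem Core.congr {L L' : Listing} {n : ℕ} {s : Stg L n} (h : Core s) (A : L.Agree L' n) :
    Core (s.congr A) where
  generates := h.generates
  central := h.central
  solves := A.solves h.solves
  guarded j hj := A.guarded hj (h.guarded j hj)
  pos j hj := by rw [A.e_eq hj]; exact h.pos j hj
  degree j hj := by
    show L'.e j ≤ finrank s.P.K (s.P.scalars L' j)
    rw [A.e_eq hj, show s.P.scalars L' j = s.P.scalars L j by
      simp only [Pt.scalars, Pt.q, A.p_eq]]
    exact h.degree j hj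
  tight := s.rows.tight_congr A h.tight
  deletes := s.rows.deletes_congr A h.deletes
  grown := h.grown
  budget := h.budget
  big := s.rows.big_congr A h.big

theorem R.congr_of {L L' : Listing} {n : ℕ} (A : L.Agree L' n)
    (hG : ∀ s, Good I n s → Good I n (s.congr A)) {s t : Stg L n} (h : R I n s t) :
    R I n (s.congr A) (t.congr A) :=
  ⟨h.1, hG t h.2.1, fun m hm => by
    exact ((t.rows.trunc hm).corank_congr (A.mono hm)).trans_le
      ((h.2.2 m hm).trans ((s.rows.trunc hm).corank_congr (A.mono hm)).ge)⟩

/-- Good stages do not see the listing beyond their rows. -/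
theorem Good.congr (hI : CongrKept I) : ∀ {n : ℕ} {L L' : Listing} {s : Stg L n},
    Good I n s → ∀ A : L.Agree L' n, Good I n (s.congr A)
  | 0, _, _, _, h, A => Core.congr h A
  | n + 1, L, L', s, h, A => by
    have A' := A.mono (Nat.le_succ n)
    refine ⟨h.1.congr A, Good.congr hI h.2.1 A', hI A _ _ ?_ ?_ s h.2.2⟩
    · intro a b hab
      induction hab with
      | refl => exact .refl
      | tail _ h2 ih => exact ih.tail (R.congr_of A'.symm (fun _ hu => Good.congr hI hu A'.symm) h2)
    · intro a b hab
      induction hab with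
      | refl => exact .refl
      | tail _ h2 ih => exact ih.tail (R.congr_of A' (fun _ hu => Good.congr hI hu A') h2)

end Main

end

end Vale.Agent.P199
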