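import Vale.Agent.P199.Main.Trunc
import Vale.Agent.P199.Minimise.Arc

/-!
P199, main: stages only see the listing up to their rows.
-/

namespace Vale.Agent.P199

noncomputable section

open Module

/-- Listings agreeing on the first `n` rows. -/
structure Listing.Agree (L L' : Listing) (n : ℕ) : Prop where
  p_eq : L'.p = L.p
  b_eq : ∀ i ≤ n, L'.b i = L.b i

namespace Listing.Agree

variable {L L' : Listing} {n : ℕ} (A : L.Agree L' n)
include A

theorem symm : L'.Agree L n := ⟨A.p_eq.symm, fun i hi => (A.b_eq i hi).symm⟩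

theorem mono {m : ℕ} (h : m ≤ n) : L.Agree L' m := ⟨A.p_eq, fun i hi => A.b_eq i (hi.trans h)⟩

theorem e_eq {j : ℕ} (hj : j < n) : L'.e j = L.e j := by
  have h1 := L.b_succ j
  have h2 := L'.b_succ j
  have h3 := A.b_eq j hj.le
  have h4 := A.b_eq (j + 1) hj
  omega

theorem eqn_eq {j : ℕ} (hj : j < n) : L'.eqn j = L.eqn j := by
  simp only [Listing.eqn, A.p_eq, A.e_eq hj, A.b_eq j hj.le]

theorem solves {P : Pt} (h : P.Solves L n) : P.Solves L' n := fun j hj => by
  rw [A.eqn_eq hj]; exact h j hj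

theorem guarded {j : ℕ} (hj : j ≤ n) (h : L.Guarded j) : L'.Guarded j := fun {R} _ v v' ha hb => by
  rw [A.p_eq]
  exact h v v' ha fun i hi => hb i (by rw [A.b_eq j hj]; exact hi)

end Listing.Agree

namespace Rows

variable {L L' : Listing} {n : ℕ} {P : Pt} (r : Rows L n P) (A : L.Agree L' n)

/-- The same rows for the other listing. -/
abbrev congr : Rows L' n P where
  W := r.W
  Pp := r.Pp
  proj := r.proj
  projF := r.projF
  proj_mem := r.proj_mem
  proj_self := r.proj_self
  proj_Pp := r.proj_Pp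
  projF_mem := r.projF_mem
  projF_self := r.projF_self
  proj_projF := r.proj_projF
  Pp_le j := by
    have h : P.scalars L' j = P.scalars L j := by simp only [Pt.scalars, Pt.q, A.p_eq]
    rw [h]; exact r.Pp_le j
  scalars_le j := by
    have h : P.scalars L' j = P.scalars L j := by simp only [Pt.scalars, Pt.q, A.p_eq]
    rw [h]; exact r.scalars_le j

theorem congr_congr : (r.congr A).congr A.symm = r := rfl

theorem congr_trunc {m : ℕ} (h : m ≤ n) : (r.congr A).trunc h = (r.trunc h).congr (A.mono h) := rfl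

include A in
theorem dEq_congr (j : Fin n) (w : P.Dir (L.b n)) :
    P.dEq L' (L'.b n) j (P.pad (L'.b n) w) = P.dEq L (L.b n) j w := by
  show Poly.d1 P.val (P.dirVal (P.pad (L'.b n) w)) (L'.eqn j) = _
  rw [P.dirVal_pad (A.b_eq n le_rfl).ge, A.eqn_eq j.2]
  rfl

theorem J_congr : (r.congr A).J = r.J := LinearMap.ext fun u => funext fun j => Subtype.ext (by
  show r.proj j (Poly.d1 P.val (P.dirVal (N := L'.b n) (u, 0)) (L'.eqn j)) =
    r.proj j (Poly.d1 P.val (P.dirVal (N := L.b n) (u, 0)) (L.eqn j))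
  rw [P.dirVal_ambient (L'.b n) (L.b n), A.eqn_eq j.2])

theorem T_congr : (r.congr A).T = r.T := congrArg LinearMap.ker (r.J_congr A)

theorem Y_congr : (r.congr A).Y = r.Y := by
  show (LinearMap.range (r.congr A).J).dualAnnihilator = (LinearMap.range r.J).dualAnnihilator
  rw [r.J_congr A]

theorem corank_congr : (r.congr A).corank = r.corank := by
  show finrank P.K (r.congr A).Y = finrank P.K r.Y
  rw [r.Y_congr A]

theorem form_congr (y : Dual P.K ((j : Fin n) → r.W j)) (u v : Amb P) :
    (r.congr A).form y u v = r.form y u v := by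
  refine congrArg y (funext fun j => Subtype.ext ?_)
  show r.proj j (Poly.d2 P.val (P.dirVal (N := L'.b n) (u, 0)) (P.dirVal (N := L'.b n) (v, 0))
    (L'.eqn j)) = r.proj j _
  rw [P.dirVal_ambient (L'.b n) (L.b n), P.dirVal_ambient (L'.b n) (L.b n), A.eqn_eq j.2]

theorem rankGE_congr {R : ℕ} (h : r.RankGE R) : (r.congr A).RankGE R := by
  intro y hy h0 S hS hform
  rw [r.T_congr A] at hS ⊢
  exact h y (r.Y_congr A ▸ hy) h0 S hS fun u hu v hv => by
    rw [← r.form_congr A]; exact hform u hu v (by rw [r.T_congr A]; exact hv)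

theorem alternating_congr (h : r.Alternating) : (r.congr A).Alternating := fun y hy u hu => by
  rw [r.form_congr A]; exact h y (r.Y_congr A ▸ hy) u (r.T_congr A ▸ hu)

theorem big_congr (h : r.Big) : (r.congr A).Big := by
  obtain ⟨R, hR, h1, h2⟩ := h
  exact ⟨R, r.rankGE_congr A hR, by rw [r.corank_congr A]; exact h1,
    by rw [r.corank_congr A]; exact h2⟩

theorem tight_congr (h : r.Tight) : (r.congr A).Tight := by
  have hJf : ∀ w, ∀ j, ((r.congr A).Jf (P.pad (L'.b n) w) j : P.D) = (r.Jf w j : P.D) := fun w j => by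
    show r.projF j (P.dEq L' (L'.b n) j (P.pad (L'.b n) w)) = r.projF j _
    rw [dEq_congr A]
  refine ⟨fun t => ?_, fun w' hw j => ?_, fun u hu j => ?_⟩
  · obtain ⟨v, hv⟩ := h.surj t
    exact ⟨P.pad (L'.b n) v, funext fun j => Subtype.ext ((hJf v j).trans
      (congrArg Subtype.val (congrFun hv j)))⟩
  · have hb : L.b n ≤ L'.b n := (A.b_eq n le_rfl).ge
    have e : P.pad (L'.b n) (P.cutDir hb w') = w' := Prod.ext rfl (funext fun i => by
      have hi : (i : ℕ) < L.b n := lt_of_lt_of_le i.2 (A.b_eq n le_rfl).le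
      simp [Pt.pad, Pt.cutDir, hi])
    rw [← e] at hw ⊢
    rw [dEq_congr A]
    exact h.exact _ (funext fun i => Subtype.ext ((hJf _ i).symm.trans
      (congrArg Subtype.val (congrFun hw i)))) j
  · show Poly.d1 P.val (P.dirVal (N := L'.b n) (u, 0)) (L'.eqn j) = 0
    rw [P.dirVal_ambient (L'.b n) (L.b n), A.eqn_eq j.2]
    exact h.fixed u (r.T_congr A ▸ hu) j

theorem deletes_congr (h : r.Deletes) : (r.congr A).Deletes := by
  intro X Cs hX hC h0 m hp j
  rw [A.eqn_eq j.2]
  refine h X Cs hX hC (fun k i hk hi => h0 k i hk (by rw [A.b_eq n le_rfl]; exact hi)) m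
    (fun i k hk => ?_) j
  rw [← A.eqn_eq i.2]
  exact hp i k hk

end Rows

/-- The same stage for the other listing. -/
def Stg.congr {L L' : Listing} {n : ℕ} (s : Stg L n) (A : L.Agree L' n) : Stg L' n :=
  ⟨s.P, s.rows.congr A⟩

theorem Glue.agree_listing {e e' : ℕ → ℕ} {n : ℕ} (h : ∀ i < n, e i = e' i) :
    (Glue.listing e).Agree (Glue.listing e') n :=
  ⟨rfl, fun _ hi => (Glue.offset_congr fun k hk => h k (hk.trans_le hi)).symm⟩

end

end Vale.Agent.P199
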