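import Vale.Agent.P199.Main.Good

/-!
P199, main: a stage with `n` rows does not see the symbols from `L.b n` on. Steps, edges and good stages are carried
along a change of these symbols, so they may be re-set before the next row is frozen.
-/

namespace Vale.Agent.P199

noncomputable section

open Module Relation

/-- The same point with other symbols. -/
abbrev Pt.setC (P : Pt) (f : ℕ → P.K) : Pt :=
  { K := P.K, D := P.D, xy := P.xy, c := f }

namespace Listing

variable (L : Listing) {R : Type} [Ring R]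

/-- The equation of row `j` only sees symbols below `L.b (j + 1)`. -/
theorem ev_eqn_congr_setC {j : ℕ} (hg : L.Guarded j) {v v' : Var → R}
    (h1 : ∀ a, v (Sum.inl a) = v' (Sum.inl a))
    (h2 : ∀ i < L.b (j + 1), v (Sum.inr i) = v' (Sum.inr i)) :
    Poly.ev v (L.eqn j) = Poly.ev v' (L.eqn j) := by
  have hb := L.b_succ j
  have hp : Poly.ev v (L.p j) = Poly.ev v' (L.p j) := hg v v' h1 fun i hi => h2 i (by omega)
  simp only [Listing.eqn, map_add, map_sum, map_mul, map_pow, Poly.ev_X, hp]
  congr 1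
  refine Finset.sum_congr rfl fun i hi => ?_
  rw [h2 (L.b j + i) (by have := Finset.mem_range.1 hi; omega)]

theorem jet_eqn_congr {j : ℕ} (hg : L.Guarded j) {x x' : Var → R} (u w : Var → R)
    (h1 : ∀ a, x (Sum.inl a) = x' (Sum.inl a))
    (h2 : ∀ i < L.b (j + 1), x (Sum.inr i) = x' (Sum.inr i)) :
    Poly.jet x u w (L.eqn j) = Poly.jet x' u w (L.eqn j) :=
  L.ev_eqn_congr_setC hg (fun a => by rw [h1]) fun i hi => by rw [h2 i hi]

end Listing

namespace Pt

variable (P : Pt) {L : Listing} {n : ℕ} (hg : ∀ j < n, L.Guarded j) {f : ℕ → P.K}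
  (hf : ∀ i < L.b n, f i = P.c i)

include hf in
theorem val_setC {i : ℕ} (hi : i < L.b n) :
    (P.setC f).val (Sum.inr i) = P.val (Sum.inr i) := congrArg (algebraMap P.K P.D) (hf i hi)

include hg hf

theorem q_setC {j : ℕ} (hj : j < n) : (P.setC f).q L j = P.q L j :=
  hg j hj (P.setC f).val P.val (fun _ => rfl) fun _ hi =>
    P.val_setC hf (lt_of_lt_of_le hi (NewRow.b_mono L hj.le))

theorem scalars_setC {j : ℕ} (hj : j < n) : (P.setC f).scalars L j = P.scalars L j := by
  simp only [Pt.scalars, P.q_setC hg hf hj]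

theorem ev_eqn_setC {j : ℕ} (hj : j < n) :
    Poly.ev (P.setC f).val (L.eqn j) = Poly.ev P.val (L.eqn j) :=
  L.ev_eqn_congr_setC (hg j hj) (fun _ => rfl) fun _ hi =>
    P.val_setC hf (lt_of_lt_of_le hi (NewRow.b_mono L hj))

theorem jet_setC {j : ℕ} (hj : j < n) (u w : Var → P.D) :
    Poly.jet (P.setC f).val u w (L.eqn j) = Poly.jet P.val u w (L.eqn j) :=
  L.jet_eqn_congr (hg j hj) u w (fun _ => rfl) fun _ hi =>
    P.val_setC hf (lt_of_lt_of_le hi (NewRow.b_mono L hj))

theorem dEq_setC {N j : ℕ} (hj : j < n) (w : P.Dir N) :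
    (P.setC f).dEq L N j w = P.dEq L N j w :=
  congrFun (congrFun (P.jet_setC hg hf hj (P.dirVal w) (P.dirVal w)) 0) 1

theorem d2_setC {j : ℕ} (hj : j < n) (u w : Var → P.D) :
    Poly.d2 (P.setC f).val u w (L.eqn j) = Poly.d2 P.val u w (L.eqn j) :=
  congrFun (congrFun (P.jet_setC hg hf hj u w) 0) 2

theorem solves_setC (h : P.Solves L n) : (P.setC f).Solves L n := fun j hj => by
  rw [P.ev_eqn_setC hg hf hj]; exact h j hj

end Pt

namespace Rows

variable {L : Listing} {n : ℕ} {P : Pt} (r : Rows L n P) (hg : ∀ j < n, L.Guarded j)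
  {f : ℕ → P.K} (hf : ∀ i < L.b n, f i = P.c i)

/-- The same rows for other symbols beyond the rows. -/
abbrev setC : Rows L n (P.setC f) where
  W := r.W
  Pp := r.Pp
  proj := r.proj
  projF := r.projF
  proj_mem := r.proj_mem
  proj_self := r.proj_self
  proj_Pp := r.proj_Pp
  projF_mem := r.projF_mem
  projF_self := r.projF_self
  proj_projF := r.proj_projF
  Pp_le j := by rw [P.scalars_setC hg hf j.2]; exact r.Pp_le j
  scalars_le j := by rw [P.scalars_setC hg hf j.2]; exact r.scalars_le j

theorem J_setC : (r.setC hg hf).J = r.J := LinearMap.ext fun u => funext fun j => Subtype.ext (by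
  show r.proj j ((P.setC f).dEq L (L.b n) j (u, 0)) = r.proj j (P.dEq L (L.b n) j (u, 0))
  exact congrArg (r.proj j) (P.dEq_setC hg hf j.2 (u, 0)))

theorem Jf_setC : (r.setC hg hf).Jf = r.Jf := LinearMap.ext fun w => funext fun j => Subtype.ext (by
  show r.projF j ((P.setC f).dEq L (L.b n) j w) = r.projF j (P.dEq L (L.b n) j w)
  exact congrArg (r.projF j) (P.dEq_setC hg hf j.2 w))

theorem T_setC : (r.setC hg hf).T = r.T := congrArg LinearMap.ker (r.J_setC hg hf)

theorem Y_setC : (r.setC hg hf).Y = r.Y := by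
  show (LinearMap.range (r.setC hg hf).J).dualAnnihilator = (LinearMap.range r.J).dualAnnihilator
  rw [r.J_setC hg hf]

theorem corank_setC : (r.setC hg hf).corank = r.corank := by
  show finrank P.K (r.setC hg hf).Y = finrank P.K r.Y
  rw [r.Y_setC hg hf]

theorem form_setC (y : Dual P.K ((j : Fin n) → r.W j)) (u v : Amb P) :
    (r.setC hg hf).form y u v = r.form y u v := by
  refine congrArg y (funext fun j => Subtype.ext ?_)
  exact congrArg (r.proj j) (P.d2_setC hg hf j.2 _ _)

theorem tight_setC (h : r.Tight) : (r.setC hg hf).Tight where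
  surj := by rw [r.Jf_setC hg hf]; exact h.surj
  exact w hw j := (P.dEq_setC hg hf j.2 w).trans (h.exact w (r.Jf_setC hg hf ▸ hw) j)
  fixed u hu j := (P.dEq_setC hg hf j.2 (u, 0)).trans (h.fixed u (r.T_setC hg hf ▸ hu) j)

theorem rankGE_setC {R : ℕ} (h : r.RankGE R) : (r.setC hg hf).RankGE R := by
  intro y hy h0 S hS hform
  rw [r.T_setC hg hf] at hS ⊢
  exact h y (r.Y_setC hg hf ▸ hy) h0 S hS fun u hu v hv => by
    rw [← r.form_setC hg hf]; exact hform u hu v (by rw [r.T_setC hg hf]; exact hv)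

theorem alternating_setC (h : r.Alternating) : (r.setC hg hf).Alternating := fun y hy u hu => by
  rw [r.form_setC hg hf]; exact h y (r.Y_setC hg hf ▸ hy) u (r.T_setC hg hf ▸ hu)

theorem big_setC (h : r.Big) : (r.setC hg hf).Big := by
  obtain ⟨R, hR, h1, h2⟩ := h
  exact ⟨R, r.rankGE_setC hg hf hR, by rw [r.corank_setC hg hf]; exact h1,
    by rw [r.corank_setC hg hf]; exact h2⟩

theorem deletes_setC (h : r.Deletes) : (r.setC hg hf).Deletes := by
  intro X Cs hX hC h0 m hp j
  let Cs' : ℕ → ℕ → P.K := fun k => if k = 0 then P.c else Cs k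
  have e : ∀ i : Fin n, Poly.ev (SeriesPoint.ser (P₁ := P) X Cs) (L.eqn i) =
      Poly.ev (SeriesPoint.ser (P₁ := P) X Cs') (L.eqn i) := fun i =>
    L.ev_eqn_congr_setC (hg i i.2) (fun _ => rfl) fun k hk => by
      refine PowerSeries.ext fun s => ?_
      simp only [SeriesPoint.ser, PowerSeries.coeff_mk, Cs']
      rcases eq_or_ne s 0 with rfl | hs
      · rw [if_pos rfl, hC]
        exact congrArg (algebraMap P.K P.D) (hf k (lt_of_lt_of_le hk (NewRow.b_mono L i.2)))
      · rw [if_neg hs]
  refine (congrArg (PowerSeries.coeff m) (e j)).trans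
    (h X Cs' hX (if_pos rfl) (fun k i hk hi => ?_) m (fun i k hk => ?_) j)
  · simp only [Cs', if_neg hk.ne']
    exact h0 k i hk hi
  · exact (congrArg (fun z => r.projF i (PowerSeries.coeff k z)) (e i)).symm.trans (hp i k hk)

end Rows

/-- The same stage with other symbols beyond its rows. -/
def Stg.setC {L : Listing} {n : ℕ} (s : Stg L n) (hg : ∀ j < n, L.Guarded j) {f : ℕ → s.P.K}
    (hf : ∀ i < L.b n, f i = s.P.c i) : Stg L n :=
  ⟨s.P.setC f, s.rows.setC hg hf⟩

theorem Stg.setC_setC {L : Listing} {n : ℕ} (s : Stg L n) (hg : ∀ j < n, L.Guarded j) {f : ℕ → s.P.K}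
    (hf : ∀ i < L.b n, f i = s.P.c i) : (s.setC hg hf).setC hg (f := s.P.c) (fun i hi => (hf i hi).symm) = s :=
  rfl

/-- A step after re-setting the symbols beyond `N` of the old point. -/
theorem step_setC {P Q : Pt} (h : Step P Q) (N : ℕ) (f : ℕ → P.K) (hf : ∀ i < N, f i = P.c i) :
    ∃ g : ℕ → Q.K, (∀ i < N, g i = Q.c i) ∧ Step (P.setC f) (Q.setC g) := by
  obtain ⟨P₁, ⟨E⟩, ⟨T⟩⟩ := h
  refine ⟨fun i => if i < N then Q.c i else T.eK (HahnSeries.C (E.iK (f i))),
    fun i hi => if_pos hi, P₁.setC fun i => E.iK (f i), ⟨?_⟩, ⟨?_⟩⟩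
  · exact
      { iK := E.iK
        iD := E.iD
        map_algebraMap := E.map_algebraMap
        m := E.m
        mon := E.mon
        comm := E.comm
        mon_one := E.mon_one
        indep := E.indep
        finrank_eq := E.finrank_eq
        xy_eq := E.xy_eq
        c_eq := fun _ => rfl }
  · exact
      { eK := T.eK
        eD := T.eD
        map_scalar := T.map_scalar
        xy_neg := T.xy_neg
        xy_zero := T.xy_zero
        c_neg := fun i k hk => by
          show (T.eK.symm (if i < N then Q.c i else T.eK (HahnSeries.C (E.iK (f i))))).coeff k = 0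
          split_ifs
          · exact T.c_neg i k hk
          · rw [RingEquiv.symm_apply_apply, HahnSeries.C_apply, HahnSeries.coeff_single_of_ne hk.ne]
        c_zero := fun i => by
          show (T.eK.symm (if i < N then Q.c i else T.eK (HahnSeries.C (E.iK (f i))))).coeff 0 =
            E.iK (f i)
          split_ifs with hi
          · rw [hf i hi, ← E.c_eq]; exact T.c_zero i
          · rw [RingEquiv.symm_apply_apply, HahnSeries.C_apply, HahnSeries.coeff_single_same] }

namespace Main

variable {L : Listing}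

/-- A relation on stages which re-setting symbols beyond the rows respects. -/
def SimClosed {n : ℕ} (D : Stg L n → Stg L n → Prop) : Prop :=
  ∀ (hg : ∀ j < n, L.Guarded j) (a b : Stg L n), D a b →
    ∀ (f : ℕ → a.P.K) (hf : ∀ i < L.b n, f i = a.P.c i),
      ∃ (g : ℕ → b.P.K) (hb : ∀ i < L.b n, g i = b.P.c i), D (a.setC hg hf) (b.setC hg hb)

/-- A row invariant respects re-setting the symbols beyond the rows. -/
def SetKept (I : RowInv) : Prop :=
  ∀ {L : Listing} {n : ℕ} (hg : ∀ j < n + 1, L.Guarded j) (D : Stg L n → Stg L n → Prop),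
    SimClosed D → ∀ (s : Stg L (n + 1)) (f : ℕ → s.P.K) (hf : ∀ i < L.b (n + 1), f i = s.P.c i),
      I D s → I D (s.setC hg hf)

theorem Core.setC {n : ℕ} {s : Stg L n} (h : Core s) (hg : ∀ j < n, L.Guarded j) {f : ℕ → s.P.K}
    (hf : ∀ i < L.b n, f i = s.P.c i) : Core (s.setC hg hf) where
  generates := h.generates
  central := h.central
  solves := s.P.solves_setC hg hf h.solves
  guarded := h.guarded
  pos := h.pos
  degree j hj := by
    show L.e j ≤ finrank s.P.K ((s.P.setC f).scalars L j)
    rw [s.P.scalars_setC hg hf hj]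
    exact h.degree j hj
  tight := s.rows.tight_setC hg hf h.tight
  deletes := s.rows.deletes_setC hg hf h.deletes
  grown := h.grown
  budget := h.budget
  big := s.rows.big_setC hg hf h.big

variable {I : RowInv}

/-- Edges between good stages respect re-setting. -/
theorem simClosed_R {n : ℕ}
    (hG : ∀ (hg : ∀ j < n, L.Guarded j) (s : Stg L n) (f : ℕ → s.P.K)
      (hf : ∀ i < L.b n, f i = s.P.c i), Good I n s → Good I n (s.setC hg hf)) :
    SimClosed (R I (L := L) n) := fun hg a b hab f hf => by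
  obtain ⟨g, hb, hstep⟩ := step_setC hab.1 (L.b n) f hf
  refine ⟨g, hb, hstep, hG hg b g hb hab.2.1, fun m hm => ?_⟩
  show ((b.rows.setC hg hb).trunc hm).corank ≤ ((a.rows.setC hg hf).trunc hm).corank
  have hm' : ∀ i, i < L.b m → i < L.b n := fun i hi => hi.trans_le (NewRow.b_mono L hm)
  exact ((b.rows.trunc hm).corank_setC (fun j hj => hg j (hj.trans_le hm))
      fun i hi => hb i (hm' i hi)).trans_le
    ((hab.2.2 m hm).trans ((a.rows.trunc hm).corank_setC (fun j hj => hg j (hj.trans_le hm))
      fun i hi => hf i (hm' i hi)).ge)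

theorem simClosed_desc {n : ℕ} {D : Stg L n → Stg L n → Prop} (h : SimClosed D) :
    SimClosed (ReflTransGen D) := fun hg a b hab f hf => by
  induction hab with
  | refl => exact ⟨f, hf, .refl⟩
  | tail _ h2 ih =>
    obtain ⟨g, hb, hd⟩ := ih
    obtain ⟨g', hb', hd'⟩ := h hg _ _ h2 g hb
    exact ⟨g', hb', hd.tail hd'⟩

/-- Good stages do not see the symbols beyond their rows. -/
theorem Good.setC (hI : SetKept I) : ∀ {n : ℕ} (hg : ∀ j < n, L.Guarded j) (s : Stg L n)
    (f : ℕ → s.P.K) (hf : ∀ i < L.b n, f i = s.P.c i), Good I n s → Good I n (s.setC hg hf)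
  | 0, hg, _, _, hf, h => Core.setC h hg hf
  | n + 1, hg, s, f, hf, h => by
    have hg' : ∀ j < n, L.Guarded j := fun j hj => hg j (hj.trans n.lt_succ_self)
    refine ⟨h.1.setC hg hf, ?_, ?_⟩
    · exact Good.setC hI hg' (s.trunc n.le_succ) f
        (fun i hi => hf i (hi.trans_le (NewRow.b_mono L n.le_succ))) h.2.1
    · exact hI hg _ (simClosed_desc (simClosed_R fun _ t g hb ht => Good.setC hI _ t g hb ht))
        s f hf h.2.2

end Main

end

end Vale.Agent.P199
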